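import Vale.Agent.P365.InfB.Main
import Vale.Agent.P365.Inf.Box

set_option linter.all false

/-!
# P365 INFB: final form for iid potentials with bounded density
-/

namespace P365L.InfB

open MeasureTheory ProbabilityTheory Complex Filter Topology P365L.Inf
open scoped ENNReal InnerProductSpace

variable {Ω : Type*} [MeasurableSpace Ω] {P : Measure Ω} [IsProbabilityMeasure P]
variable {V : Site → Ω → ℝ}

/-- the finite volume hypothesis on the box `Lam M` with the product measure of the law `ν` -/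
def FMboxR (ν : Measure ℝ) (E : ℝ) : Prop :=
  ∃ s C c₀ η₀ : ℝ, 0 < s ∧ s ≤ 1 ∧ 0 < c₀ ∧ 0 < η₀ ∧ ∀ η : ℝ, 0 < η → η ≤ η₀ → ∀ y : Site,
    ∀ᶠ M in atTop, ∀ hy : y ∈ Lam M,
      ∫⁻ v, ENNReal.ofReal (‖GR (AL M) v (E + η * I) ⟨y, hy⟩ (oL M)‖ ^ s)
          ∂(Measure.pi fun _ : Lam M => ν) ≤ ENNReal.ofReal (C * Real.exp (-c₀ * n1 y))

theorem FM_of_box {ν : Measure ℝ} [IsProbabilityMeasure ν] (hV : ∀ x, Measurable (V x))
    (hi : iIndepFun V P) (hl : ∀ x, P.map (V x) = ν) {E : ℝ} (h : FMboxR ν E) (x : Site) :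
    FM P (fun ω => shift x (pot V ω)) E := by
  obtain ⟨s, C, c₀, η₀, hs0, hs1, hc₀, hη₀, H⟩ := h
  refine ⟨s, C, c₀, η₀, hs0, hs1, hc₀, hη₀, fun η hη hη1 y => ?_⟩
  have hev : ∀ᶠ M in atTop, y ∈ Lam M :=
    (eventually_ge_atTop (y.1.natAbs + y.2.natAbs)).mono fun L hL => (mem_Lam L y).2 hL
  filter_upwards [H η hη hη1 y, hev] with M hM hy
  refine le_trans (le_of_eq ?_) (hM hy)
  set V' : Ω → (Lam M → ℝ) := fun ω y => V (x + y) ω with hV'
  have hV'm : Measurable V' := measurable_pi_lambda _ fun y => hV _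
  have hinj : Function.Injective (fun y : Lam M => x + (y : Site)) := by
    intro a b hab
    exact Subtype.ext (add_left_cancel hab)
  have hi' : iIndepFun (fun y : Lam M => V (x + y)) P := hi.precomp hinj
  have hlaw : P.map V' = Measure.pi fun _ : Lam M => ν := by
    have h1 := (iIndepFun_iff_map_fun_eq_pi_map
      (fun y : Lam M => (hV (x + y)).aemeasurable)).mp hi'
    rw [hV', h1]
    simp only [hl]
  have hFm : Measurable fun v : Lam M → ℝ =>
      ENNReal.ofReal (‖GR (AL M) v (E + η * I) ⟨y, hy⟩ (oL M)‖ ^ s) :=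
    ((measurable_GR (AL M) (E + η * I) ⟨y, hy⟩ (oL M)).norm.pow_const s).ennreal_ofReal
  rw [← hlaw, lintegral_map hFm hV'm]
  refine lintegral_congr fun ω => ?_
  have h3 : GVs M (shift x (pot V ω)) (E + η * I) y =
      GV M (shift x (pot V ω)) (E + η * I) ⟨y, hy⟩ (oL M) := GVs_coe M _ _ ⟨y, hy⟩
  rw [h3]
  rfl

/-- **Final form**: iid potential whose law has a bounded density. If the fractional moments of
the finite volume Green functions decay exponentially at every energy, then almost surely the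
eigenvectors span a dense subspace of `ℓ²(ℤ²)`. -/
theorem pure_point_iid {ν : Measure ℝ} [IsProbabilityMeasure ν] {K : ℝ} (hK0 : 0 < K)
    (hK : ν ≤ ENNReal.ofReal K • (volume : Measure ℝ)) (hV : ∀ x, Measurable (V x))
    (hi : iIndepFun V P) (hl : ∀ x, P.map (V x) = ν) (h : ∀ E : ℝ, FMboxR ν E) :
    ∀ᵐ ω ∂P, EE (fun y => V y ω) = ⊤ := by
  have hγ : 0 < 1 / (Real.pi * K) := by
    have := Real.pi_pos
    positivity
  have hs : BSetup P V (1 / (Real.pi * K)) := by
    refine ⟨hV, hi, fun x => ?_⟩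
    rw [hl x]
    have h1 : 1 / (Real.pi * (1 / (Real.pi * K))) = K := by
      have := Real.pi_pos.ne'
      field_simp
    rw [h1]
    exact hK
  exact pure_point hγ hs fun x E => FM_of_box hV hi hl (h E) x

end P365L.InfB
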