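import Vale.Agent.P365.Inf.Final
import Mathlib.MeasureTheory.Integral.Marginal

set_option linter.all false

/-!
# P365 INFB: the rank one step in finite volume for a law with bounded density
-/

namespace P365L.InfB

open MeasureTheory Complex Filter Topology P365L.Inf
open scoped ENNReal InnerProductSpace

variable {ι : Type*} [Fintype ι] [DecidableEq ι]
variable {A : Matrix ι ι ℝ} {z : ℂ}

/-- the Green matrix with real potential `v` -/
noncomputable def GR (A : Matrix ι ι ℝ) (v : ι → ℝ) (z : ℂ) : Matrix ι ι ℂ :=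
  Gr A fun x => (v x : ℂ) - z

theorem im_v (v : ι → ℝ) (hz : 0 < z.im) (x : ι) : ((v x : ℂ) - z).im < 0 := by
  simpa using hz

theorem measurable_GR (A : Matrix ι ι ℝ) (z : ℂ) (x y : ι) :
    Measurable fun v : ι → ℝ => GR A v z x y := by
  unfold GR
  exact measurable_Gr (fun (v : ι → ℝ) x => (v x : ℂ) - z) (fun x =>
    (Complex.measurable_ofReal.comp (measurable_pi_apply x)).sub_const _) _ _

/-- change of one potential value -/
theorem GR_update (hA : A.IsSymm) (hz : 0 < z.im) (v : ι → ℝ) (o : ι) (t : ℝ) :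
    1 + ((t - v o : ℝ) : ℂ) * GR A v z o o ≠ 0 ∧ ∀ y, GR A (Function.update v o t) z y o =
      GR A v z y o * (1 + ((t - v o : ℝ) : ℂ) * GR A v z o o)⁻¹ := by
  have h1 := Gr_update (W := fun x => (v x : ℂ) - z) hA (im_v v hz) o ((t - v o : ℝ) : ℂ) (by
    have h2 : ((v o : ℂ) - z + ((t - v o : ℝ) : ℂ)) = (t : ℂ) - z := by push_cast; ring
    rw [h2]
    simpa using hz)
  have h3 : (fun x => ((Function.update v o t) x : ℂ) - z) =
      Function.update (fun x => (v x : ℂ) - z) o ((v o : ℂ) - z + ((t - v o : ℝ) : ℂ)) := by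
    funext x
    by_cases hx : x = o
    · subst hx
      rw [Function.update_self, Function.update_self]
      push_cast
      ring
    · rw [Function.update_of_ne hx, Function.update_of_ne hx]
  refine ⟨h1.1, fun y => ?_⟩
  have h4 := h1.2 y o
  unfold GR
  rw [h3, h4]
  have h5 := h1.1
  generalize Gr A (fun x => (v x : ℂ) - z) o o = g at *
  generalize Gr A (fun x => (v x : ℂ) - z) y o = b at *
  generalize ((t - v o : ℝ) : ℂ) = d at *
  rw [← div_eq_mul_inv, eq_div_iff h5, sub_mul, mul_assoc, div_mul_cancel₀ _ h5]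
  ring

/-- the flux identity -/
theorem GR_flux (hA : A.IsSymm) (hz : 0 < z.im) (v : ι → ℝ) (o : ι) :
    z.im * ∑ y, ‖GR A v z y o‖ ^ 2 = (GR A v z o o).im := by
  have h1 := Gr_flux (W := fun x => (v x : ℂ) - z) hA (im_v v hz) o
  unfold GR
  rw [h1, Finset.mul_sum]
  refine Finset.sum_congr rfl fun y _ => ?_
  simp

theorem GR_im_pos (hA : A.IsSymm) (hz : 0 < z.im) (v : ι → ℝ) (o : ι) : 0 < (GR A v z o o).im := by
  rw [← GR_flux hA hz v o]
  refine mul_pos hz ?_
  have hne : 0 < ∑ y, ‖GR A v z y o‖ ^ 2 := by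
    refine lt_of_le_of_ne (Finset.sum_nonneg fun y _ => sq_nonneg _) (Ne.symm ?_)
    intro h0
    have h1 : ∀ y, GR A v z y o = 0 := by
      intro y
      have h2 := (Finset.sum_eq_zero_iff_of_nonneg (fun y _ => sq_nonneg ‖GR A v z y o‖)).1 h0 y
        (Finset.mem_univ y)
      exact norm_eq_zero.1 (pow_eq_zero_iff (two_ne_zero) |>.1 h2)
    have h3 := Kmat_mulVec_Gr (W := fun x => (v x : ℂ) - z) hA (im_v v hz) o o
    rw [if_pos rfl, Kmat_mulVec] at h3
    have h4 : ∀ y, Gr A (fun x => (v x : ℂ) - z) y o = 0 := h1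
    simp [h4] at h3
  exact hne

/-- one-site average of the imaginary part of the diagonal element -/
theorem avg_im (hA : A.IsSymm) (hz : 0 < z.im) (v : ι → ℝ) (o : ι) {ν : Measure ℝ} {K : ℝ}
    (hK : ν ≤ ENNReal.ofReal K • volume) :
    ∫⁻ t, ENNReal.ofReal (GR A (Function.update v o t) z o o).im ∂ν ≤
      ENNReal.ofReal K * ENNReal.ofReal Real.pi := by
  set g : ℂ := GR A v z o o with hg
  have hgim : 0 < g.im := GR_im_pos hA hz v o
  have hg0 : g ≠ 0 := fun h => by rw [h] at hgim; simp at hgim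
  set a : ℂ := (v o : ℂ) - g⁻¹ with ha
  have haim : 0 < a.im := by
    rw [ha, Complex.sub_im, Complex.ofReal_im, zero_sub, Complex.inv_im, neg_div, neg_neg]
    exact div_pos hgim (Complex.normSq_pos.2 hg0)
  have hpt : ∀ t : ℝ, (GR A (Function.update v o t) z o o).im =
      a.im / ((a.re - t) ^ 2 + a.im ^ 2) := by
    intro t
    obtain ⟨h1, h2⟩ := GR_update hA hz v o t
    rw [h2 o, ← hg]
    rw [← hg] at h1
    have h3 : g * (1 + ((t - v o : ℝ) : ℂ) * g)⁻¹ = ((t : ℂ) - a)⁻¹ := by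
      have h4 : (t : ℂ) - a = (1 + ((t - v o : ℝ) : ℂ) * g) * g⁻¹ := by
        rw [ha, add_mul, mul_assoc, mul_inv_cancel₀ hg0]
        push_cast
        ring
      rw [h4, mul_inv, inv_inv, mul_comm]
    rw [h3, Complex.inv_im, Complex.normSq_apply]
    simp only [sub_im, ofReal_im, sub_re, ofReal_re, zero_sub, neg_neg]
    congr 1
    ring
  simp only [hpt]
  calc ∫⁻ t, ENNReal.ofReal (a.im / ((a.re - t) ^ 2 + a.im ^ 2)) ∂ν
      ≤ ∫⁻ t, ENNReal.ofReal (a.im / ((a.re - t) ^ 2 + a.im ^ 2)) ∂(ENNReal.ofReal K • volume) :=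
        lintegral_mono' hK le_rfl
    _ = ENNReal.ofReal K * ENNReal.ofReal Real.pi := by
        rw [lintegral_smul_measure, lintegral_poisson_one a.re haim, smul_eq_mul]

/-- the truncated sum -/
noncomputable def truncR (A : Matrix ι ι ℝ) (z : ℂ) (o : ι) (F : Finset ι) (v : ι → ℝ) : ℝ :=
  min 1 (2 * (4 + ‖(v o : ℂ) - z‖ ^ 2) * ∑ y ∈ F, ‖GR A v z y o‖ ^ 2)

theorem measurable_truncR (A : Matrix ι ι ℝ) (z : ℂ) (o : ι) (F : Finset ι) :
    Measurable (truncR A z o F) := by
  unfold truncR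
  refine measurable_const.min ?_
  refine Measurable.mul ?_ (Finset.measurable_sum _ fun y _ =>
    ((measurable_GR A z y o).norm.pow_const 2))
  exact (((((Complex.measurable_ofReal.comp (measurable_pi_apply o)).sub_const _).norm.pow_const
    2).const_add _).const_mul _)

/-- **rank one step** for a product measure -/
theorem rank_one (hA : A.IsSymm) (hz : 0 < z.im) (o : ι)
    (hdeg : ∑ y, A o y ^ 2 ≤ 4) (F : Finset ι) {μ : ι → Measure ℝ}
    [∀ i, IsProbabilityMeasure (μ i)] {K : ℝ} (hK : μ o ≤ ENNReal.ofReal K • volume) :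
    ∫⁻ v, ENNReal.ofReal (z.im * ∑ y ∈ F, ‖GR A v z y o‖ ^ 2) ∂(Measure.pi μ) ≤
      ENNReal.ofReal K * ENNReal.ofReal Real.pi *
        ∫⁻ v, ENNReal.ofReal (truncR A z o F v) ∂(Measure.pi μ) := by
  have hm1 : Measurable fun v : ι → ℝ => ENNReal.ofReal (z.im * ∑ y ∈ F, ‖GR A v z y o‖ ^ 2) :=
    ((Finset.measurable_sum _ fun y _ => (measurable_GR A z y o).norm.pow_const 2).const_mul
      _).ennreal_ofReal
  have hm2 : Measurable fun v : ι → ℝ => ENNReal.ofReal (truncR A z o F v) :=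
    (measurable_truncR A z o F).ennreal_ofReal
  rw [← lintegral_const_mul _ hm2]
  refine lintegral_le_of_lmarginal_le {o} hm1 (hm2.const_mul _) fun v => ?_
  rw [lmarginal_singleton, lmarginal_singleton]
  simp only
  have hm3 : Measurable fun t : ℝ => ENNReal.ofReal (truncR A z o F (Function.update v o t)) :=
    hm2.comp (_root_.measurable_update v)
  rw [lintegral_const_mul _ hm3]
  set S : ℝ := ∑ y, ‖GR A v z y o‖ ^ 2 with hS
  set SF : ℝ := ∑ y ∈ F, ‖GR A v z y o‖ ^ 2 with hSF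
  have hS0 : 0 < S := by
    have h1 := GR_im_pos hA hz v o
    rw [← GR_flux hA hz v o] at h1
    exact (pos_iff_pos_of_mul_pos h1).1 hz
  have hSF0 : 0 ≤ SF := Finset.sum_nonneg fun y _ => sq_nonneg _
  have hSFS : SF ≤ S := Finset.sum_le_sum_of_subset_of_nonneg (Finset.subset_univ _)
    fun y _ _ => sq_nonneg _
  set r : ℝ := SF / S with hr
  have hr0 : 0 ≤ r := div_nonneg hSF0 hS0.le
  have hr1 : r ≤ 1 := (div_le_one hS0).2 hSFS
  have hsum : ∀ (t : ℝ) (B : Finset ι),
      ∑ y ∈ B, ‖GR A (Function.update v o t) z y o‖ ^ 2 =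
        (∑ y ∈ B, ‖GR A v z y o‖ ^ 2) *
          ‖(1 + ((t - v o : ℝ) : ℂ) * GR A v z o o)⁻¹‖ ^ 2 := by
    intro t B
    rw [Finset.sum_mul]
    refine Finset.sum_congr rfl fun y _ => ?_
    rw [(GR_update hA hz v o t).2, norm_mul, mul_pow]
  have hratio : ∀ t : ℝ, ∑ y ∈ F, ‖GR A (Function.update v o t) z y o‖ ^ 2 =
      r * ∑ y, ‖GR A (Function.update v o t) z y o‖ ^ 2 := by
    intro t
    rw [hsum, hsum, ← hS, ← hSF, hr]
    field_simp
  have h1 : ∀ t : ℝ, ENNReal.ofReal (z.im * ∑ y ∈ F, ‖GR A (Function.update v o t) z y o‖ ^ 2) =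
      ENNReal.ofReal r * ENNReal.ofReal (GR A (Function.update v o t) z o o).im := by
    intro t
    rw [hratio t, ← ENNReal.ofReal_mul hr0, ← GR_flux hA hz _ o]
    congr 1
    ring
  simp only [h1]
  have hm4 : Measurable fun t : ℝ => ENNReal.ofReal (GR A (Function.update v o t) z o o).im :=
    (Complex.measurable_im.comp ((measurable_GR A z o o).comp
      (_root_.measurable_update v))).ennreal_ofReal
  rw [lintegral_const_mul _ hm4, mul_comm]
  refine mul_le_mul' (avg_im hA hz v o hK) ?_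
  have h2 : ∀ t : ℝ, ENNReal.ofReal r ≤ ENNReal.ofReal (truncR A z o F (Function.update v o t)) := by
    intro t
    refine ENNReal.ofReal_le_ofReal ?_
    unfold truncR
    refine le_min hr1 ?_
    have h2 := one_le_col (W := fun x => ((Function.update v o t) x : ℂ) - z) hA
      (im_v _ hz) o hdeg
    have h3 := mul_le_mul_of_nonneg_left h2 hr0
    rw [mul_one] at h3
    refine h3.trans (le_of_eq ?_)
    have h4 := hratio t
    rw [h4]
    unfold GR
    ring
  calc ENNReal.ofReal r = ∫⁻ _, ENNReal.ofReal r ∂(μ o) := by simp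
    _ ≤ _ := lintegral_mono h2

end P365L.InfB
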