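import Vale.Agent.P365.InfB.Fin

set_option linter.all false

/-!
# P365 INFB: pure point spectrum from fractional moments for independent potentials with
uniformly bounded densities
-/

namespace P365L.InfB

open MeasureTheory ProbabilityTheory Complex Filter Topology P365L.Inf
open scoped ENNReal InnerProductSpace

variable {Ω : Type*} [MeasurableSpace Ω] {P : Measure Ω} [IsProbabilityMeasure P]

/-- the standing assumptions on the random potential: independent, with laws dominated by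
`1 / (π γ)` times Lebesgue measure -/
structure BSetup (P : Measure Ω) (V : Site → Ω → ℝ) (γ : ℝ) : Prop where
  hV : ∀ x, Measurable (V x)
  hi : iIndepFun V P
  hK : ∀ x, P.map (V x) ≤ ENNReal.ofReal (1 / (Real.pi * γ)) • (volume : Measure ℝ)

/-- the random potential -/
def pot (V : Site → Ω → ℝ) (ω : Ω) : Site → ℝ := fun y => V y ω

variable {γ : ℝ} {V : Site → Ω → ℝ}

theorem measurable_pot (hs : BSetup P V γ) (x : Site) : Measurable fun ω => pot V ω x := hs.hV x

/-- **finite volume bound of the far absorption** -/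
theorem fin_bound (hγ : 0 < γ) (hs : BSetup P V γ) (x : Site) (M : ℕ) {z : ℂ} (hz : 0 < z.im)
    (F : Finset Site) :
    ∫⁻ ω, ENNReal.ofReal (z.im * ∑ y ∈ F, ‖GVs M (shift x (pot V ω)) z y‖ ^ 2) ∂P ≤
      ENNReal.ofReal (1 / γ) * ∫⁻ ω, ENNReal.ofReal (min 1
        (2 * (4 + ‖((pot V ω x : ℝ) : ℂ) - z‖ ^ 2) *
          ∑ y ∈ F, ‖GVs M (shift x (pot V ω)) z y‖ ^ 2)) ∂P := by
  classical
  set V' : Ω → (Lam M → ℝ) := fun ω y => V (x + y) ω with hV'
  have hV'm : Measurable V' := measurable_pi_lambda _ fun y => hs.hV _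
  have hinj : Function.Injective (fun y : Lam M => x + (y : Site)) := by
    intro a b hab
    exact Subtype.ext (add_left_cancel hab)
  have hi' : iIndepFun (fun y : Lam M => V (x + y)) P := hs.hi.precomp hinj
  have hlaw : P.map V' = Measure.pi fun y : Lam M => P.map (V (x + y)) :=
    (iIndepFun_iff_map_fun_eq_pi_map (fun y : Lam M => (hs.hV (x + y)).aemeasurable)).mp hi'
  have hprob : ∀ y : Lam M, IsProbabilityMeasure (P.map (V (x + y))) := fun y =>
    Measure.isProbabilityMeasure_map (hs.hV _).aemeasurable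
  set F' : Finset (Lam M) := Finset.univ.filter fun y => (y : Site) ∈ F with hF'
  have hsumF : ∀ ω, ∑ y ∈ F, ‖GVs M (shift x (pot V ω)) z y‖ ^ 2 =
      ∑ y ∈ F', ‖GR (AL M) (V' ω) z y (oL M)‖ ^ 2 := by
    intro ω
    have h1 : ∑ y ∈ F, ‖GVs M (shift x (pot V ω)) z y‖ ^ 2 =
        ∑ y ∈ F.filter (fun y => y ∈ Lam M), ‖GVs M (shift x (pot V ω)) z y‖ ^ 2 := by
      rw [Finset.sum_filter]
      refine Finset.sum_congr rfl fun y _ => ?_
      by_cases h : y ∈ Lam M
      · rw [if_pos h]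
      · rw [if_neg h, GVs_out _ _ _ h]
        simp
    rw [h1]
    symm
    refine Finset.sum_bij (fun (y : Lam M) _ => (y : Site)) ?_ ?_ ?_ ?_
    · intro y hy
      exact Finset.mem_filter.2 ⟨(Finset.mem_filter.1 hy).2, y.2⟩
    · intro a _ b _ hab
      exact Subtype.ext hab
    · intro y hy
      have hy := Finset.mem_filter.1 hy
      exact ⟨⟨y, hy.2⟩, Finset.mem_filter.2 ⟨Finset.mem_univ _, hy.1⟩, rfl⟩
    · intro y _
      rw [GVs_coe]
      rfl
  have hx0 : x + ((oL M : Lam M) : Site) = x := Prod.ext (by simp [oL]) (by simp [oL])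
  have hroot : ∀ ω, pot V ω x = V' ω (oL M) := by
    intro ω
    simp only [hV', pot, hx0]
  set f1 : (Lam M → ℝ) → ℝ≥0∞ := fun v =>
    ENNReal.ofReal (z.im * ∑ y ∈ F', ‖GR (AL M) v z y (oL M)‖ ^ 2) with hf1
  set f2 : (Lam M → ℝ) → ℝ≥0∞ := fun v => ENNReal.ofReal (truncR (AL M) z (oL M) F' v) with hf2
  have hf1m : Measurable f1 :=
    ((Finset.measurable_sum _ fun y _ => (measurable_GR _ z y _).norm.pow_const 2).const_mul
      _).ennreal_ofReal
  have hf2m : Measurable f2 := (measurable_truncR _ z _ F').ennreal_ofReal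
  have e1 : ∀ ω, ENNReal.ofReal (z.im * ∑ y ∈ F, ‖GVs M (shift x (pot V ω)) z y‖ ^ 2) =
      f1 (V' ω) := by
    intro ω
    rw [hsumF]
  have e2 : ∀ ω, ENNReal.ofReal (min 1 (2 * (4 + ‖((pot V ω x : ℝ) : ℂ) - z‖ ^ 2) *
      ∑ y ∈ F, ‖GVs M (shift x (pot V ω)) z y‖ ^ 2)) = f2 (V' ω) := by
    intro ω
    rw [hsumF, hroot]
    rfl
  simp_rw [e1, e2]
  have l1 : ∫⁻ ω, f1 (V' ω) ∂P = ∫⁻ v, f1 v ∂(Measure.pi fun y : Lam M => P.map (V (x + y))) := by
    rw [← hlaw, lintegral_map hf1m hV'm]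
  have l2 : ∫⁻ ω, f2 (V' ω) ∂P = ∫⁻ v, f2 v ∂(Measure.pi fun y : Lam M => P.map (V (x + y))) := by
    rw [← hlaw, lintegral_map hf2m hV'm]
  rw [l1, l2]
  have h1 := rank_one (AL_symm M) hz (oL M) (AL_deg M (oL M)) F'
    (μ := fun y : Lam M => P.map (V (x + y))) (K := 1 / (Real.pi * γ)) (hs.hK _)
  refine h1.trans (le_of_eq ?_)
  rw [← ENNReal.ofReal_mul (by positivity)]
  congr 2
  have := Real.pi_pos.ne'
  field_simp

/-- the same with fractional moments -/
theorem fin_bound' (hγ : 0 < γ) (hs : BSetup P V γ) (x : Site) (M : ℕ) {z : ℂ} (hz : 0 < z.im)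
    (F : Finset Site) {s K : ℝ} (hs0 : 0 < s) (hs1 : s ≤ 1) :
    ∫⁻ ω, ENNReal.ofReal (z.im * ∑ y ∈ F, ‖GVs M (shift x (pot V ω)) z y‖ ^ 2) ∂P ≤
      ENNReal.ofReal (1 / γ) * (P {ω | K < ‖((pot V ω x : ℝ) : ℂ) - z‖} +
        ENNReal.ofReal ((2 * (4 + K ^ 2)) ^ (s / 2)) *
          ∑ y ∈ F, ∫⁻ ω, ENNReal.ofReal (‖GVs M (shift x (pot V ω)) z y‖ ^ s) ∂P) := by
  refine (fin_bound hγ hs x M hz F).trans ?_
  gcongr
  have hmV : ∀ y, Measurable fun ω => shift x (pot V ω) y := fun y => measurable_pot hs (x + y)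
  have hmG : ∀ y, Measurable fun ω => GVs M (shift x (pot V ω)) z y := fun y =>
    measurable_GVs M (fun ω => shift x (pot V ω)) (fun _ => z) hmV measurable_const y
  have hmy : ∀ y, Measurable fun ω => ENNReal.ofReal (‖GVs M (shift x (pot V ω)) z y‖ ^ s) :=
    fun y => ((hmG y).norm.pow_const s).ennreal_ofReal
  have hm0 : Measurable fun ω => ‖((pot V ω x : ℝ) : ℂ) - z‖ :=
    ((Complex.measurable_ofReal.comp (measurable_pot hs x)).sub_const _).norm
  have hset : MeasurableSet {ω | K < ‖((pot V ω x : ℝ) : ℂ) - z‖} :=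
    measurableSet_lt measurable_const hm0
  calc ∫⁻ ω, ENNReal.ofReal (min 1 (2 * (4 + ‖((pot V ω x : ℝ) : ℂ) - z‖ ^ 2) *
          ∑ y ∈ F, ‖GVs M (shift x (pot V ω)) z y‖ ^ 2)) ∂P
      ≤ ∫⁻ ω, ({ω | K < ‖((pot V ω x : ℝ) : ℂ) - z‖}.indicator (fun _ => (1 : ℝ≥0∞)) ω +
          ENNReal.ofReal ((2 * (4 + K ^ 2)) ^ (s / 2)) *
            ∑ y ∈ F, ENNReal.ofReal (‖GVs M (shift x (pot V ω)) z y‖ ^ s)) ∂P := by
        refine lintegral_mono fun ω => ?_
        simp only
        have h1 := min_one_le (K := K) (w := ‖((pot V ω x : ℝ) : ℂ) - z‖) hs0 hs1 F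
          (fun y => ‖GVs M (shift x (pot V ω)) z y‖) (fun y => norm_nonneg _) (norm_nonneg _)
        refine (ENNReal.ofReal_le_ofReal h1).trans ?_
        rw [ENNReal.ofReal_add (by split_ifs <;> norm_num) (mul_nonneg
          (Real.rpow_nonneg (by positivity) _) (Finset.sum_nonneg fun y _ =>
            Real.rpow_nonneg (norm_nonneg _) _)),
          ENNReal.ofReal_mul (Real.rpow_nonneg (by positivity) _),
          ENNReal.ofReal_sum_of_nonneg fun y _ => Real.rpow_nonneg (norm_nonneg _) _]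
        refine add_le_add ?_ le_rfl
        by_cases h : ‖((pot V ω x : ℝ) : ℂ) - z‖ ≤ K
        · rw [if_pos h]
          simp
        · have hmem : ω ∈ {ω | K < ‖((pot V ω x : ℝ) : ℂ) - z‖} := not_le.1 h
          rw [if_neg h, Set.indicator_of_mem hmem]
          simp
    _ = P {ω | K < ‖((pot V ω x : ℝ) : ℂ) - z‖} +
        ENNReal.ofReal ((2 * (4 + K ^ 2)) ^ (s / 2)) *
          ∑ y ∈ F, ∫⁻ ω, ENNReal.ofReal (‖GVs M (shift x (pot V ω)) z y‖ ^ s) ∂P := by
        rw [lintegral_add_left (measurable_const.indicator hset),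
          lintegral_const_mul _ (Finset.measurable_sum _ fun y _ => hmy y),
          lintegral_finset_sum _ fun y _ => hmy y, lintegral_indicator_const hset, one_mul]

/-- infinite volume bound on finite sets -/
theorem inf_bound (hγ : 0 < γ) (hs : BSetup P V γ) (x : Site) {z : ℂ} (hz : 0 < z.im)
    (F : Finset Site) {s K : ℝ} (hs0 : 0 < s) (hs1 : s ≤ 1) (a : Site → ℝ≥0∞)
    (ha : ∀ y ∈ F, ∀ᶠ M in atTop, ∫⁻ ω, ENNReal.ofReal
      (‖GVs M (shift x (pot V ω)) z y‖ ^ s) ∂P ≤ a y) :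
    ∫⁻ ω, ENNReal.ofReal (z.im * ∑ y ∈ F, ‖(Res (pot V ω) z (dl x)) (x + y)‖ ^ 2) ∂P ≤
      ENNReal.ofReal (1 / γ) * (P {ω | K < ‖((pot V ω x : ℝ) : ℂ) - z‖} +
        ENNReal.ofReal ((2 * (4 + K ^ 2)) ^ (s / 2)) * ∑ y ∈ F, a y) := by
  have hmV : ∀ y, Measurable fun ω => shift x (pot V ω) y := fun y => measurable_pot hs (x + y)
  have hmG : ∀ M y, Measurable fun ω => GVs M (shift x (pot V ω)) z y := fun M y =>
    measurable_GVs M (fun ω => shift x (pot V ω)) (fun _ => z) hmV measurable_const y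
  set f : ℕ → Ω → ℝ≥0∞ := fun M ω => ENNReal.ofReal (z.im * ∑ y ∈ F,
    ‖GVs M (shift x (pot V ω)) z y‖ ^ 2) with hf
  have hfm : ∀ M, Measurable (f M) := fun M =>
    ((Finset.measurable_sum _ fun y _ => (hmG M y).norm.pow_const 2).const_mul _).ennreal_ofReal
  have hlim : ∀ ω, Tendsto (fun M => f M ω) atTop (𝓝 (ENNReal.ofReal (z.im * ∑ y ∈ F,
      ‖(Res (pot V ω) z (dl x)) (x + y)‖ ^ 2))) := by
    intro ω
    refine ENNReal.tendsto_ofReal (Tendsto.const_mul _ (tendsto_finsetSum _ fun y _ => ?_))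
    exact (tendsto_GVs hz x y (res_spec (pot V ω) hz (dl x))).norm.pow 2
  have h1 : ∀ ω, ENNReal.ofReal (z.im * ∑ y ∈ F,
      ‖(Res (pot V ω) z (dl x)) (x + y)‖ ^ 2) = liminf (fun M => f M ω) atTop :=
    fun ω => (hlim ω).liminf_eq.symm
  simp only [h1]
  refine (lintegral_liminf_le hfm).trans ?_
  refine liminf_le_of_frequently_le' (Eventually.frequently ?_)
  have hev : ∀ᶠ M in atTop, ∀ y ∈ F, ∫⁻ ω, ENNReal.ofReal
      (‖GVs M (shift x (pot V ω)) z y‖ ^ s) ∂P ≤ a y :=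
    (Filter.eventually_all_finset F).2 ha
  filter_upwards [hev] with M hM
  refine (fin_bound' hγ hs x M hz F (K := K) hs0 hs1).trans ?_
  gcongr with y hy
  exact hM y hy

/-- tightness of the potential at a site -/
theorem tight_pot (hs : BSetup P V γ) (x : Site) {ε : ℝ≥0∞} (hε : ε ≠ 0) :
    ∃ K : ℝ, P {ω | K < |pot V ω x|} ≤ ε := by
  have hm := measurable_pot hs x
  have h1 : Tendsto (fun n : ℕ => P {ω | (n : ℝ) < |pot V ω x|}) atTop (𝓝 0) := by
    have h2 : Antitone fun n : ℕ => {ω | (n : ℝ) < |pot V ω x|} := by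
      intro a b hab ω hω
      have : (a : ℝ) ≤ b := by exact_mod_cast hab
      exact lt_of_le_of_lt this hω
    have h3 : ⋂ n : ℕ, {ω | (n : ℝ) < |pot V ω x|} = ∅ := by
      rw [Set.eq_empty_iff_forall_notMem]
      intro ω hω
      obtain ⟨n, hn⟩ := exists_nat_gt |pot V ω x|
      exact absurd (Set.mem_iInter.1 hω n) (not_lt.2 hn.le)
    have h4 := tendsto_measure_iInter_atTop (μ := P) (s := fun n : ℕ => {ω | (n : ℝ) < |pot V ω x|})
      (fun n => (measurableSet_lt measurable_const hm.abs).nullMeasurableSet) h2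
      ⟨0, measure_ne_top _ _⟩
    rw [h3, measure_empty] at h4
    exact h4
  obtain ⟨n, hn⟩ := (h1.eventually (gt_mem_nhds (pos_iff_ne_zero.2 hε))).exists
  exact ⟨n, hn.le⟩

/-- **small far absorption** at a fixed energy, in expectation -/
theorem tail_small (hγ : 0 < γ) (hs : BSetup P V γ) (x : Site) (E : ℝ)
    (hFM : FM P (fun ω => shift x (pot V ω)) E) {ε : ℝ} (hε : 0 < ε) :
    ∃ (R₀ : ℕ) (η₀ : ℝ), 0 < η₀ ∧ ∀ R, R₀ ≤ R → ∀ η : ℝ, 0 < η → η ≤ η₀ →
      ∫⁻ ω, ENNReal.ofReal (η * tail (ball x R) (Res (pot V ω) (E + η * I) (dl x))) ∂P ≤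
        ENNReal.ofReal ε := by
  obtain ⟨s, C, c₀, η₀, hs0, hs1, hc₀, hη₀, H⟩ := hFM
  -- the threshold for the potential
  obtain ⟨K₀, hK₀⟩ := tight_pot (P := P) (V := V) (γ := γ) hs x
    (ε := ENNReal.ofReal (ε * γ / 2)) (by simpa using by positivity)
  set K : ℝ := K₀ + |E| + 1 with hK
  set B : ℝ := (2 * (4 + K ^ 2)) ^ (s / 2) with hB
  have hB0 : 0 < B := Real.rpow_pos_of_pos (by positivity) _
  set D : ℝ := max C 1 with hD
  have hD0 : 0 < D := lt_of_lt_of_le one_pos (le_max_right _ _)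
  have hsum := summable_n1 hc₀
  obtain ⟨S₀, hS₀⟩ := (summable_iff_vanishing_norm.1 hsum) (ε * γ / 2 / (B * D)) (by positivity)
  obtain ⟨R₀, hR₀⟩ := (Lam_tendsto.eventually (eventually_ge_atTop S₀)).exists
  refine ⟨R₀, min η₀ 1, lt_min hη₀ one_pos, fun R hR η hη hη1 => ?_⟩
  have hz : 0 < ((E : ℂ) + η * I).im := hz_im E hη
  have hzim : ((E : ℂ) + η * I).im = η := by simp
  have hηη₀ : η ≤ η₀ := hη1.trans (min_le_left _ _)
  have hη11 : η ≤ 1 := hη1.trans (min_le_right _ _)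
  have hmV : ∀ y, Measurable fun ω => pot V ω y := fun y => measurable_pot hs y
  -- probability of a large potential
  have hPK : P {ω | K < ‖((pot V ω x : ℝ) : ℂ) - (E + η * I)‖} ≤ ENNReal.ofReal (ε * γ / 2) := by
    refine (measure_mono ?_).trans hK₀
    intro ω hω
    have h1 : ‖((pot V ω x : ℝ) : ℂ) - (E + η * I)‖ ≤ |pot V ω x| + (|E| + η) := by
      refine (norm_sub_le _ _).trans ?_
      rw [Complex.norm_real, Real.norm_eq_abs]
      refine add_le_add le_rfl ((norm_add_le _ _).trans ?_)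
      rw [Complex.norm_real, Real.norm_eq_abs, norm_mul, Complex.norm_I, mul_one,
        Complex.norm_real, Real.norm_of_nonneg hη.le]
    have h2 : K < ‖((pot V ω x : ℝ) : ℂ) - (E + η * I)‖ := hω
    show K₀ < |pot V ω x|
    linarith
  -- the limit over finite sets
  set f : ℕ → Ω → ℝ≥0∞ := fun n ω => ENNReal.ofReal (η * ∑ y ∈ Lam n \ Lam R,
    ‖(Res (pot V ω) (E + η * I) (dl x)) (x + y)‖ ^ 2) with hf
  have hmR : ∀ y, Measurable fun ω => (Res (pot V ω) (E + η * I) (dl x)) y := fun y =>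
    measurable_Res (fun ω => pot V ω) (fun _ => (E : ℂ) + η * I) hmV measurable_const
      (fun _ => hz) x y
  have hfm : ∀ n, Measurable (f n) := fun n =>
    ((Finset.measurable_sum _ fun y _ => (hmR (x + y)).norm.pow_const 2).const_mul _).ennreal_ofReal
  have h1 : ∀ ω, ENNReal.ofReal (η * tail (ball x R) (Res (pot V ω) (E + η * I) (dl x))) =
      liminf (fun n => f n ω) atTop := by
    intro ω
    symm
    refine Tendsto.liminf_eq ?_
    exact ENNReal.tendsto_ofReal ((tendsto_tail x _ R).const_mul _)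
  simp only [h1]
  refine (lintegral_liminf_le hfm).trans ?_
  refine liminf_le_of_frequently_le' (Eventually.frequently (Eventually.of_forall fun n => ?_))
  have hb := inf_bound hγ hs x hz (Lam n \ Lam R) (K := K) hs0 hs1
    (fun y => ENNReal.ofReal (C * Real.exp (-c₀ * n1 y))) (fun y _ => H η hη hηη₀ y)
  rw [hzim] at hb
  refine hb.trans ?_
  have hsumle : ∑ y ∈ Lam n \ Lam R, ENNReal.ofReal (C * Real.exp (-c₀ * n1 y)) ≤
      ENNReal.ofReal (D * (ε * γ / 2 / (B * D))) := by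
    have hdis : Disjoint (Lam n \ Lam R) S₀ := by
      rw [Finset.disjoint_left]
      intro y hy hy'
      exact (Finset.mem_sdiff.1 hy).2 (Lam_mono hR (hR₀ hy'))
    have h2 := hS₀ _ hdis
    rw [Real.norm_of_nonneg (Finset.sum_nonneg fun y _ => (Real.exp_pos _).le)] at h2
    calc ∑ y ∈ Lam n \ Lam R, ENNReal.ofReal (C * Real.exp (-c₀ * n1 y))
        ≤ ∑ y ∈ Lam n \ Lam R, ENNReal.ofReal (D * Real.exp (-c₀ * n1 y)) := by
          refine Finset.sum_le_sum fun y _ => ENNReal.ofReal_le_ofReal ?_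
          exact mul_le_mul_of_nonneg_right (le_max_left _ _) (Real.exp_pos _).le
      _ = ENNReal.ofReal (D * ∑ y ∈ Lam n \ Lam R, Real.exp (-c₀ * n1 y)) := by
          rw [Finset.mul_sum, ENNReal.ofReal_sum_of_nonneg fun y _ =>
            mul_nonneg hD0.le (Real.exp_pos _).le]
      _ ≤ _ := ENNReal.ofReal_le_ofReal (mul_le_mul_of_nonneg_left h2.le hD0.le)
  calc ENNReal.ofReal (1 / γ) * (P {ω | K < ‖((pot V ω x : ℝ) : ℂ) - (E + η * I)‖} +
        ENNReal.ofReal B * ∑ y ∈ Lam n \ Lam R, ENNReal.ofReal (C * Real.exp (-c₀ * n1 y)))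
      ≤ ENNReal.ofReal (1 / γ) * (ENNReal.ofReal (ε * γ / 2) +
        ENNReal.ofReal B * ENNReal.ofReal (D * (ε * γ / 2 / (B * D)))) := by
        gcongr
    _ = ENNReal.ofReal ε := by
        rw [← ENNReal.ofReal_mul hB0.le, ← ENNReal.ofReal_add (by positivity) (by positivity),
          ← ENNReal.ofReal_mul (by positivity)]
        congr 1
        field_simp
        ring

/-- the expected spectral density is at most `1/γ` -/
theorem mean_le (hγ : 0 < γ) (hs : BSetup P V γ) (x : Site) {z : ℂ} (hz : 0 < z.im) (R : ℕ) :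
    ∫⁻ ω, ENNReal.ofReal (z.im * tail (ball x R) (Res (pot V ω) z (dl x))) ∂P ≤
      ENNReal.ofReal (1 / γ) := by
  have hmV : ∀ y, Measurable fun ω => pot V ω y := fun y => measurable_pot hs y
  have hmV' : ∀ y, Measurable fun ω => shift x (pot V ω) y := fun y =>
    measurable_pot hs (x + y)
  have hmR : ∀ y, Measurable fun ω => (Res (pot V ω) z (dl x)) y := fun y =>
    measurable_Res (fun ω => pot V ω) (fun _ => z) hmV measurable_const (fun _ => hz) x y
  set f : ℕ → Ω → ℝ≥0∞ := fun n ω => ENNReal.ofReal (z.im * ∑ y ∈ Lam n \ Lam R,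
    ‖(Res (pot V ω) z (dl x)) (x + y)‖ ^ 2) with hf
  have hfm : ∀ n, Measurable (f n) := fun n =>
    ((Finset.measurable_sum _ fun y _ => (hmR (x + y)).norm.pow_const 2).const_mul _).ennreal_ofReal
  have h1 : ∀ ω, ENNReal.ofReal (z.im * tail (ball x R) (Res (pot V ω) z (dl x))) =
      liminf (fun n => f n ω) atTop := by
    intro ω
    symm
    refine Tendsto.liminf_eq ?_
    exact ENNReal.tendsto_ofReal ((tendsto_tail x _ R).const_mul _)
  simp only [h1]
  refine (lintegral_liminf_le hfm).trans ?_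
  refine liminf_le_of_frequently_le' (Eventually.frequently (Eventually.of_forall fun n => ?_))
  -- finite volume
  have hmG : ∀ M y, Measurable fun ω => GVs M (shift x (pot V ω)) z y := fun M y =>
    measurable_GVs M (fun ω => shift x (pot V ω)) (fun _ => z) hmV' measurable_const y
  set g : ℕ → Ω → ℝ≥0∞ := fun M ω => ENNReal.ofReal (z.im * ∑ y ∈ Lam n \ Lam R,
    ‖GVs M (shift x (pot V ω)) z y‖ ^ 2) with hg
  have hgm : ∀ M, Measurable (g M) := fun M =>
    ((Finset.measurable_sum _ fun y _ => (hmG M y).norm.pow_const 2).const_mul _).ennreal_ofReal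
  have h2 : ∀ ω, f n ω = liminf (fun M => g M ω) atTop := by
    intro ω
    symm
    refine Tendsto.liminf_eq ?_
    refine ENNReal.tendsto_ofReal (Tendsto.const_mul _ (tendsto_finsetSum _ fun y _ => ?_))
    exact (tendsto_GVs hz x y (res_spec (pot V ω) hz (dl x))).norm.pow 2
  simp only [h2]
  refine (lintegral_liminf_le hgm).trans ?_
  refine liminf_le_of_frequently_le' (Eventually.frequently (Eventually.of_forall fun M => ?_))
  refine (fin_bound hγ hs x M hz _).trans ?_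
  calc ENNReal.ofReal (1 / γ) * ∫⁻ ω, ENNReal.ofReal (min 1
        (2 * (4 + ‖((pot V ω x : ℝ) : ℂ) - z‖ ^ 2) *
          ∑ y ∈ Lam n \ Lam R, ‖GVs M (shift x (pot V ω)) z y‖ ^ 2)) ∂P
      ≤ ENNReal.ofReal (1 / γ) * ∫⁻ _, 1 ∂P := by
        gcongr with ω
        rw [← ENNReal.ofReal_one]
        exact ENNReal.ofReal_le_ofReal (min_le_left _ _)
    _ = ENNReal.ofReal (1 / γ) := by simp

/-- the almost sure smallness on a window, along the sequence `1/(k+1)` -/
theorem ae_window (hγ : 0 < γ) (hs : BSetup P V γ) (x : Site)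
    (hFM : ∀ E : ℝ, FM P (fun ω => shift x (pot V ω)) E) (N : ℕ)
    (η : ℕ → ℝ) (hη : ∀ k, 0 < η k) (hη0 : Tendsto η atTop (𝓝 0)) :
    ∀ᵐ ω ∂P, ∀ ε : ℝ, 0 < ε → ∃ R : ℕ, ∃ᶠ k in atTop,
      ∫⁻ E in {E : ℝ | |E| ≤ (N : ℝ)},
        ENNReal.ofReal (η k * tail (ball x R) (Res (pot V ω) (E + η k * I) (dl x))) ≤
          ENNReal.ofReal ε := by
  set W : Measure ℝ := volume.restrict {E : ℝ | |E| ≤ (N : ℝ)} with hW
  have hWfin : IsFiniteMeasure W := by
    refine ⟨?_⟩
    rw [hW, Measure.restrict_apply_univ]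
    have : {E : ℝ | |E| ≤ (N : ℝ)} = Set.Icc (-(N : ℝ)) N := by
      ext E
      exact abs_le (G := ℝ)
    rw [this]
    simp
  set X : ℕ → ℕ → Ω × ℝ → ℝ≥0∞ := fun R k p =>
    ENNReal.ofReal (η k * tail (ball x R) (Res (pot V p.1) (p.2 + η k * I) (dl x))) with hX
  have hXm : ∀ R k, Measurable (X R k) := by
    intro R k
    have h1 := measurable_tail (fun p : Ω × ℝ => pot V p.1) (fun p => (p.2 : ℂ) + η k * I)
      (fun y => (measurable_pot hs y).comp measurable_fst)
      ((Complex.measurable_ofReal.comp measurable_snd).add_const _)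
      (fun p => hz_im p.2 (hη k)) x R
    have h2 : ∀ p : Ω × ℝ, ((p.2 : ℂ) + η k * I).im = η k := fun p => by simp
    simp only [h2] at h1
    exact h1.ennreal_ofReal
  set J : ℕ → ℕ → ℝ → ℝ≥0∞ := fun R k E => ∫⁻ ω, X R k (ω, E) ∂P with hJ
  have hJm : ∀ R k, Measurable (J R k) := fun R k => (hXm R k).lintegral_prod_left'
  have hJle : ∀ R k E, J R k E ≤ ENNReal.ofReal (1 / γ) := by
    intro R k E
    have h1 := mean_le hγ hs x (hz_im E (hη k)) R
    have h2 : ((E : ℂ) + η k * I).im = η k := by simp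
    rw [h2] at h1
    exact h1
  set L : ℕ → ℝ → ℝ≥0∞ := fun R E => limsup (fun k => J R k E) atTop with hL
  have hLm : ∀ R, Measurable (L R) := fun R => Measurable.limsup (hJm R)
  have hLle : ∀ R E, L R E ≤ ENNReal.ofReal (1 / γ) := fun R E =>
    limsup_le_of_le (by isBoundedDefault) (Eventually.of_forall fun k => hJle R k E)
  have hL0 : ∀ E, Tendsto (fun R => L R E) atTop (𝓝 0) := by
    intro E
    rw [ENNReal.tendsto_nhds_zero]
    intro ε hε
    by_cases hεt : ε = ∞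
    · exact Eventually.of_forall fun R => by rw [hεt]; exact le_top
    have hε' : 0 < ε.toReal := ENNReal.toReal_pos hε.ne' hεt
    obtain ⟨R₀, η₀, hη₀, H⟩ := tail_small hγ hs x E (hFM E) hε'
    filter_upwards [eventually_ge_atTop R₀] with R hR
    refine limsup_le_of_le (by isBoundedDefault) ?_
    filter_upwards [hη0.eventually (gt_mem_nhds hη₀)] with k hk
    have := H R hR (η k) (hη k) hk.le
    rwa [ENNReal.ofReal_toReal hεt] at this
  have hb : Tendsto (fun R => ∫⁻ E, L R E ∂W) atTop (𝓝 0) := by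
    have h0 : ∫⁻ E, (0 : ℝ≥0∞) ∂W = 0 := lintegral_zero
    rw [← h0]
    refine tendsto_lintegral_of_dominated_convergence (fun _ => ENNReal.ofReal (1 / γ)) hLm
      (fun R => ae_of_all _ fun E => hLle R E) ?_ (ae_of_all _ fun E => hL0 E)
    rw [lintegral_const]
    exact ENNReal.mul_ne_top ENNReal.ofReal_ne_top (measure_ne_top _ _)
  set Y : ℕ → Ω → ℝ≥0∞ := fun R ω => liminf (fun k => ∫⁻ E, X R k (ω, E) ∂W) atTop with hY
  have hIm : ∀ R k, Measurable fun ω => ∫⁻ E, X R k (ω, E) ∂W := fun R k =>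
    (hXm R k).lintegral_prod_right'
  have hYm : ∀ R, Measurable (Y R) := fun R => Measurable.liminf (hIm R)
  have hYle : ∀ R, ∫⁻ ω, Y R ω ∂P ≤ ∫⁻ E, L R E ∂W := by
    intro R
    have h1 : ∫⁻ ω, Y R ω ∂P ≤ liminf (fun k => ∫⁻ ω, ∫⁻ E, X R k (ω, E) ∂W ∂P) atTop :=
      lintegral_liminf_le (hIm R)
    have h2 : ∀ k, ∫⁻ ω, ∫⁻ E, X R k (ω, E) ∂W ∂P = ∫⁻ E, J R k E ∂W := by
      intro k
      rw [lintegral_lintegral_swap (hXm R k).aemeasurable]
    simp only [h2] at h1
    refine h1.trans ?_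
    refine (liminf_le_limsup (by isBoundedDefault) (by isBoundedDefault)).trans ?_
    refine limsup_lintegral_le (fun _ => ENNReal.ofReal (1 / γ)) (hJm R)
      (fun k => ae_of_all _ fun E => hJle R k E) ?_
    rw [lintegral_const]
    exact ENNReal.mul_ne_top ENNReal.ofReal_ne_top (measure_ne_top _ _)
  have hZ : ∫⁻ ω, ⨅ R, Y R ω ∂P = 0 := by
    refine le_antisymm ?_ bot_le
    refine ge_of_tendsto' hb fun R => ?_
    exact (lintegral_mono fun ω => iInf_le _ R).trans (hYle R)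
  have hZ0 : ∀ᵐ ω ∂P, ⨅ R, Y R ω = 0 := (lintegral_eq_zero_iff (Measurable.iInf hYm)).1 hZ
  filter_upwards [hZ0] with ω hω ε hε
  have h1 : ⨅ R, Y R ω < ENNReal.ofReal ε := by
    rw [hω]
    simpa using hε
  obtain ⟨R, hR⟩ := iInf_lt_iff.1 h1
  refine ⟨R, ?_⟩
  have h2 : ∃ᶠ k in atTop, ∫⁻ E, X R k (ω, E) ∂W < ENNReal.ofReal ε :=
    frequently_lt_of_liminf_lt (by isBoundedDefault) hR
  exact h2.mono fun k hk => hk.le

/-- **Main theorem of the block INF.** If the fractional moments of the finite volume Green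
functions decay exponentially at every energy (around every site), then almost surely the
eigenvectors of `Δ + V` span a dense subspace of `ℓ²(ℤ²)`: pure point spectrum. -/
theorem pure_point (hγ : 0 < γ) (hs : BSetup P V γ)
    (hFM : ∀ (x : Site) (E : ℝ), FM P (fun ω => shift x (pot V ω)) E) :
    ∀ᵐ ω ∂P, EE (pot V ω) = ⊤ := by
  set η : ℕ → ℝ := fun k => 1 / ((k : ℝ) + 1) with hηdef
  have hη : ∀ k, 0 < η k := fun k => by simp only [hηdef]; positivity
  have hη1 : ∀ k, η k ≤ 1 := by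
    intro k
    simp only [hηdef]
    rw [div_le_one (by positivity)]
    have : (0 : ℝ) ≤ k := Nat.cast_nonneg k
    linarith
  have hη0 : Tendsto η atTop (𝓝 0) := tendsto_one_div_add_atTop_nhds_zero_nat
  have h1 : ∀ᵐ ω ∂P, ∀ x : Site, ∀ N : ℕ, ∀ ε : ℝ, 0 < ε → ∃ R : ℕ, ∃ᶠ k in atTop,
      ∫⁻ E in {E : ℝ | |E| ≤ (N : ℝ)},
        ENNReal.ofReal (η k * tail (ball x R) (Res (pot V ω) (E + η k * I) (dl x))) ≤
          ENNReal.ofReal ε := by
    rw [ae_all_iff]
    intro x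
    rw [ae_all_iff]
    intro N
    exact ae_window hγ hs x (hFM x) N η hη hη0
  filter_upwards [h1] with ω hω
  exact EE_eq_top' _ η hη hη1 hη0 hω

end P365L.InfB
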